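import Crest.Agent.SLT.StabHS
import Crest.Agent.SLT.PIDefs

/-!
Row 332, STAB: the pointwise deficits are defined in `PIDefs`.
-/
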